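import Vale.Agent.P207.SPH.Defs

/-!
# P207, project SPH, row R7: `sg` and `topV` are partial sums and products of the ordered
eigenvalues (spectral theorem and Cauchy interlacing)
-/

open Matrix

noncomputable section

namespace Vale.Agent.P207.SPH.H234

/-- the spectral theorem, with ordered eigenvalues -/
theorem diag {m : ℕ} (S : Mt m) (hS : Sᵀ = S) : ∃ (O : Mt m) (e : Fin m → ℝ), Antitone e ∧
    Oᵀ * O = 1 ∧ O * Oᵀ = 1 ∧ S = O * diagonal e * Oᵀ := by
  have hA : S.IsHermitian := by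
    rw [Matrix.IsHermitian, conjTranspose_eq_transpose_of_trivial, hS]
  obtain ⟨P, hP1, hPS⟩ : ∃ P : Mt m, Pᵀ * P = 1 ∧ S = P * diagonal hA.eigenvalues * Pᵀ := by
    refine ⟨(hA.eigenvectorUnitary : Mt m), ?_, ?_⟩
    · have h := Unitary.coe_star_mul_self hA.eigenvectorUnitary
      rwa [star_eq_conjTranspose, conjTranspose_eq_transpose_of_trivial] at h
    · have h := hA.spectral_theorem
      rw [Unitary.conjStarAlgAut_apply] at h
      conv_lhs => rw [h]
      rw [star_eq_conjTranspose, conjTranspose_eq_transpose_of_trivial]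
      rfl
  set σ : Equiv.Perm (Fin m) := Tuple.sort (fun i => -hA.eigenvalues i) with hσ
  have hmono : Antitone (hA.eigenvalues ∘ σ) := by
    intro i j hij
    have := Tuple.monotone_sort (fun i => -hA.eigenvalues i) hij
    simp only [Function.comp_apply] at this ⊢
    linarith
  have h1 : (P.submatrix id σ)ᵀ * P.submatrix id σ = 1 := by
    rw [transpose_submatrix, ← submatrix_mul _ _ σ id σ Function.bijective_id, hP1]
    exact submatrix_one _ σ.injective
  refine ⟨P.submatrix id σ, hA.eigenvalues ∘ σ, hmono, h1, mul_eq_one_comm.1 h1, ?_⟩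
  have h2 : diagonal (hA.eigenvalues ∘ σ) = (diagonal hA.eigenvalues).submatrix σ σ := by
    rw [submatrix_diagonal_equiv]
  rw [h2, transpose_submatrix, ← submatrix_mul _ _ id σ σ σ.bijective,
    ← submatrix_mul _ _ id σ id σ.bijective, ← hPS, submatrix_id_id]

variable {m k : ℕ}

theorem quad_diag {ι : Type*} [Fintype ι] [DecidableEq ι] (e : ι → ℝ) (x : ι → ℝ) :
    x ⬝ᵥ (diagonal e *ᵥ x) = ∑ i, e i * x i ^ 2 := by
  simp only [dotProduct, mulVec_diagonal]
  exact Finset.sum_congr rfl fun i _ => by ring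

theorem quad_mul {ι κ : Type*} [Fintype ι] [Fintype κ] (W : Matrix ι κ ℝ) (G : Matrix ι ι ℝ)
    (c : κ → ℝ) : (W *ᵥ c) ⬝ᵥ (G *ᵥ (W *ᵥ c)) = c ⬝ᵥ ((Wᵀ * G * W) *ᵥ c) := by
  rw [Matrix.mul_assoc, ← mulVec_mulVec, ← mulVec_mulVec, dotProduct_mulVec c Wᵀ,
    vecMul_transpose]

/-- interlacing -/
theorem inter (hk : k ≤ m) (e : Fin m → ℝ) (he : Antitone e)
    (W : Matrix (Fin m) (Fin k) ℝ) (hW : Wᵀ * W = 1) (g : Fin k → ℝ) (hg : Antitone g)
    (h : Wᵀ * diagonal e * W = diagonal g) (j : Fin k) : g j ≤ e (Fin.castLE hk j) := by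
  -- a vector
  let L : (Fin k → ℝ) →ₗ[ℝ] ({i : Fin m // (i : ℕ) < j} → ℝ) × ({l : Fin k // j < l} → ℝ) :=
    ((LinearMap.funLeft ℝ ℝ (fun i : {i : Fin m // (i : ℕ) < j} => i.1)).comp
      (Matrix.mulVecLin W)).prod (LinearMap.funLeft ℝ ℝ (fun l : {l : Fin k // j < l} => l.1))
  have hker : LinearMap.ker L ≠ ⊥ := by
    apply LinearMap.ker_ne_bot_of_finrank_lt
    rw [Module.finrank_prod, Module.finrank_fintype_fun_eq_card,
      Module.finrank_fintype_fun_eq_card, Module.finrank_fintype_fun_eq_card, Fintype.card_fin]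
    have h1 : Fintype.card {i : Fin m // (i : ℕ) < j} ≤ j := by
      have := Fintype.card_le_of_injective
        (fun i : {i : Fin m // (i : ℕ) < j} => (⟨i.1.1, i.2⟩ : Fin j)) (by
          intro a b hab
          simp only [Fin.mk.injEq] at hab
          exact Subtype.ext (Fin.ext hab))
      rwa [Fintype.card_fin] at this
    have h2 : Fintype.card {l : Fin k // j < l} ≤ k - 1 - j := by
      have := Fintype.card_le_of_injective
        (fun l : {l : Fin k // j < l} => (⟨l.1.1 - 1 - j, by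
          have := l.2; have h3 := l.1.2; rw [Fin.lt_def] at this; omega⟩ : Fin (k - 1 - j))) (by
          intro a b hab
          simp only [Fin.mk.injEq] at hab
          have ha := a.2; have hb := b.2
          rw [Fin.lt_def] at ha hb
          exact Subtype.ext (Fin.ext (by omega)))
      rwa [Fintype.card_fin] at this
    have := j.2
    omega
  obtain ⟨c, hc, hc0⟩ := Submodule.exists_mem_ne_zero_of_ne_bot hker
  rw [LinearMap.mem_ker] at hc
  have hx : ∀ i : Fin m, (i : ℕ) < j → (W *ᵥ c) i = 0 := by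
    intro i hi
    have := congrFun (congrArg Prod.fst hc) ⟨i, hi⟩
    simpa [L] using this
  have hcl : ∀ l : Fin k, j < l → c l = 0 := by
    intro l hl
    have := congrFun (congrArg Prod.snd hc) ⟨l, hl⟩
    simpa [L] using this
  have e1 : ∑ i, e i * (W *ᵥ c) i ^ 2 = ∑ l, g l * c l ^ 2 := by
    rw [← quad_diag, ← quad_diag, quad_mul, h]
  have e2 : ∑ i, (W *ᵥ c) i ^ 2 = ∑ l, c l ^ 2 := by
    have := quad_mul W 1 c
    rw [one_mulVec, Matrix.mul_one, hW, one_mulVec] at this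
    simpa [dotProduct, sq] using this
  have hpos : 0 < ∑ l, c l ^ 2 := by
    obtain ⟨l, hl⟩ := Function.ne_iff.1 hc0
    exact Finset.sum_pos' (fun _ _ => sq_nonneg _) ⟨l, Finset.mem_univ _, by
      have : c l ≠ 0 := hl
      positivity⟩
  have l1 : g j * ∑ l, c l ^ 2 ≤ ∑ l, g l * c l ^ 2 := by
    rw [Finset.mul_sum]
    refine Finset.sum_le_sum fun l _ => ?_
    by_cases hl : j < l
    · rw [hcl l hl]; simp
    · exact mul_le_mul_of_nonneg_right (hg (not_lt.1 hl)) (sq_nonneg _)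
  have l2 : ∑ i, e i * (W *ᵥ c) i ^ 2 ≤ e (Fin.castLE hk j) * ∑ i, (W *ᵥ c) i ^ 2 := by
    rw [Finset.mul_sum]
    refine Finset.sum_le_sum fun i _ => ?_
    by_cases hi : (i : ℕ) < j
    · rw [hx i hi]; simp
    · refine mul_le_mul_of_nonneg_right (he ?_) (sq_nonneg _)
      rw [Fin.le_def, Fin.val_castLE]
      exact not_lt.1 hi
  rw [e1, e2] at l2
  exact le_of_mul_le_mul_right (l1.trans l2) hpos

/-- the spectral theorem, for the form of a matrix on an orthonormal family -/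
theorem diag_form (hk : k ≤ m) (e : Fin m → ℝ) (he : Antitone e)
    (W : Matrix (Fin m) (Fin k) ℝ) (hW : Wᵀ * W = 1) : ∃ g : Fin k → ℝ,
    (Wᵀ * diagonal e * W).trace = ∑ j, g j ∧ (Wᵀ * diagonal e * W).det = ∏ j, g j ∧
    (∀ j, g j ≤ e (Fin.castLE hk j)) ∧ ((∀ i, 0 ≤ e i) → ∀ j, 0 ≤ g j) := by
  obtain ⟨Q, g, hg, hQ1, hQ2, hQ⟩ := diag (Wᵀ * diagonal e * W) (by
    rw [transpose_mul, transpose_mul, transpose_transpose, diagonal_transpose, Matrix.mul_assoc])
  have h1 : (W * Q)ᵀ * diagonal e * (W * Q) = diagonal g := by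
    calc (W * Q)ᵀ * diagonal e * (W * Q) = Qᵀ * (Wᵀ * diagonal e * W) * Q := by
          rw [transpose_mul]; simp only [Matrix.mul_assoc]
      _ = Qᵀ * Q * diagonal g * (Qᵀ * Q) := by rw [hQ]; simp only [Matrix.mul_assoc]
      _ = diagonal g := by rw [hQ1, Matrix.one_mul, Matrix.mul_one]
  have h2 : (W * Q)ᵀ * (W * Q) = 1 := by
    calc (W * Q)ᵀ * (W * Q) = Qᵀ * (Wᵀ * W) * Q := by
          rw [transpose_mul]; simp only [Matrix.mul_assoc]
      _ = 1 := by rw [hW, Matrix.mul_one, hQ1]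
  refine ⟨g, ?_, ?_, inter hk e he (W * Q) h2 g hg h1, fun h0 j => ?_⟩
  · rw [hQ, trace_mul_comm, ← Matrix.mul_assoc, hQ1, Matrix.one_mul, trace_diagonal]
  · rw [hQ, det_mul, det_mul, det_diagonal, mul_comm, ← mul_assoc, ← det_mul, hQ1, det_one,
      one_mul]
  · have h3 : (Pi.single j 1 : Fin k → ℝ) ⬝ᵥ (diagonal g *ᵥ (Pi.single j 1)) = g j := by
      rw [quad_diag, Finset.sum_eq_single j]
      · simp
      · intro l _ hl; simp [Pi.single_eq_of_ne hl]
      · simp
    rw [← h3, ← h1, ← quad_mul, quad_diag]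
    exact Finset.sum_nonneg fun i _ => mul_nonneg (h0 i) (sq_nonneg _)

/-- the first `k` columns of the identity -/
def Wo (m k : ℕ) : Matrix (Fin m) (Fin k) ℝ := fun i j => if (i : ℕ) = j then 1 else 0

theorem Wo_eq (hk : k ≤ m) : Wo m k = (1 : Mt m).submatrix id (Fin.castLE hk) := by
  ext i j
  simp only [Wo, submatrix_apply, id, Matrix.one_apply, Fin.ext_iff, Fin.val_castLE]

theorem Wo_form (hk : k ≤ m) (G : Mt m) :
    (Wo m k)ᵀ * G * Wo m k = G.submatrix (Fin.castLE hk) (Fin.castLE hk) := by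
  rw [Wo_eq hk]
  ext i j
  simp [Matrix.mul_apply, Matrix.one_apply]

theorem Wo_one (hk : k ≤ m) : (Wo m k)ᵀ * Wo m k = 1 := by
  have := Wo_form hk (1 : Mt m)
  rw [Matrix.mul_one] at this
  rw [this]
  exact submatrix_one _ (Fin.castLE_injective hk)

theorem psum_eq (hk : k ≤ m) (e : Fin m → ℝ) : psum k e = ∑ j, e (Fin.castLE hk j) := by
  unfold psum
  rw [← Finset.sum_filter]
  symm
  refine Finset.sum_bij (fun j _ => Fin.castLE hk j) ?_ ?_ ?_ ?_
  · intro j _; simp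
  · intro a _ b _ hab; exact Fin.castLE_injective hk hab
  · intro i hi
    exact ⟨⟨i, (Finset.mem_filter.1 hi).2⟩, Finset.mem_univ _, rfl⟩
  · intro j _; rfl

theorem pprod_eq (hk : k ≤ m) (e : Fin m → ℝ) : pprod k e = ∏ j, e (Fin.castLE hk j) := by
  unfold pprod
  rw [← Finset.prod_filter]
  symm
  refine Finset.prod_bij (fun j _ => Fin.castLE hk j) ?_ ?_ ?_ ?_
  · intro j _; simp
  · intro a _ b _ hab; exact Fin.castLE_injective hk hab
  · intro i hi
    exact ⟨⟨i, (Finset.mem_filter.1 hi).2⟩, Finset.mem_univ _, rfl⟩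
  · intro j _; rfl

section

variable {O : Mt m} {e : Fin m → ℝ} (he : Antitone e) (hO : Oᵀ * O = 1) (hO' : O * Oᵀ = 1)
  (hk : k ≤ m)

theorem conj_form (W : Matrix (Fin m) (Fin k) ℝ) : Wᵀ * (O * diagonal e * Oᵀ) * W =
    (Oᵀ * W)ᵀ * diagonal e * (Oᵀ * W) := by
  rw [transpose_mul, transpose_transpose]
  simp only [Matrix.mul_assoc]

include hO' in
theorem conj_one (W : Matrix (Fin m) (Fin k) ℝ) (hW : Wᵀ * W = 1) : (Oᵀ * W)ᵀ * (Oᵀ * W) = 1 := by
  calc (Oᵀ * W)ᵀ * (Oᵀ * W) = Wᵀ * (O * Oᵀ) * W := by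
        rw [transpose_mul, transpose_transpose]; simp only [Matrix.mul_assoc]
    _ = 1 := by rw [hO', Matrix.mul_one, hW]

include he hO hO' hk in
/-- Ky Fan: sum of the `k` largest eigenvalues -/
theorem great_sg : IsGreatest {x | ∃ W : Matrix (Fin m) (Fin k) ℝ, Wᵀ * W = 1 ∧
    x = (Wᵀ * (O * diagonal e * Oᵀ) * W).trace} (psum k e) := by
  rw [psum_eq hk]
  constructor
  · refine ⟨O * Wo m k, ?_, ?_⟩
    · calc (O * Wo m k)ᵀ * (O * Wo m k) = (Wo m k)ᵀ * (Oᵀ * O) * Wo m k := by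
            rw [transpose_mul]; simp only [Matrix.mul_assoc]
        _ = 1 := by rw [hO, Matrix.mul_one, Wo_one hk]
    · rw [conj_form, ← Matrix.mul_assoc Oᵀ O, hO, Matrix.one_mul, Wo_form hk]
      simp [Matrix.trace]
  · rintro x ⟨W, hW, rfl⟩
    rw [conj_form]
    obtain ⟨g, h1, -, h2, -⟩ := diag_form hk e he (Oᵀ * W) (conj_one hO' W hW)
    rw [h1]
    exact Finset.sum_le_sum fun j _ => h2 j

include he hO hO' hk in
/-- product of the `k` largest eigenvalues -/
theorem great_topV (h0 : ∀ i, 0 ≤ e i) : IsGreatest {x | ∃ W : Matrix (Fin m) (Fin k) ℝ,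
    Wᵀ * W = 1 ∧ x = (Wᵀ * (O * diagonal e * Oᵀ) * W).det} (pprod k e) := by
  rw [pprod_eq hk]
  constructor
  · refine ⟨O * Wo m k, ?_, ?_⟩
    · calc (O * Wo m k)ᵀ * (O * Wo m k) = (Wo m k)ᵀ * (Oᵀ * O) * Wo m k := by
            rw [transpose_mul]; simp only [Matrix.mul_assoc]
        _ = 1 := by rw [hO, Matrix.mul_one, Wo_one hk]
    · rw [conj_form, ← Matrix.mul_assoc Oᵀ O, hO, Matrix.one_mul, Wo_form hk]
      have : (diagonal e).submatrix (Fin.castLE hk) (Fin.castLE hk) =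
          diagonal (fun j => e (Fin.castLE hk j)) := by
        rw [submatrix_diagonal _ _ (Fin.castLE_injective hk)]; rfl
      rw [this, det_diagonal]
  · rintro x ⟨W, hW, rfl⟩
    rw [conj_form]
    obtain ⟨g, -, h1, h2, h3⟩ := diag_form hk e he (Oᵀ * W) (conj_one hO' W hW)
    rw [h1]
    exact Finset.prod_le_prod (fun j _ => h3 h0 j) fun j _ => h2 j

end

theorem eig : EigStmt := by
  intro m S hS
  obtain ⟨O, e, he, hO, hO', rfl⟩ := diag S hS
  have hlo : ∀ c : ℝ, (∀ x, c * (x ⬝ᵥ x) ≤ x ⬝ᵥ ((O * diagonal e * Oᵀ) *ᵥ x)) → ∀ i, c ≤ e i := by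
    intro c hc i
    have h1 := hc (O *ᵥ Pi.single i 1)
    rw [quad_mul O] at h1
    have h2 := quad_mul O 1 (Pi.single i (1 : ℝ))
    rw [one_mulVec, Matrix.mul_one, hO, one_mulVec] at h2
    rw [h2] at h1
    have h3 : Oᵀ * (O * diagonal e * Oᵀ) * O = diagonal e := by
      calc Oᵀ * (O * diagonal e * Oᵀ) * O = Oᵀ * O * diagonal e * (Oᵀ * O) := by
            simp only [Matrix.mul_assoc]
        _ = diagonal e := by rw [hO, Matrix.one_mul, Matrix.mul_one]
    rw [h3] at h1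
    simpa using h1
  refine ⟨e, he, ?_, ?_, hlo, fun k hk => (great_sg he hO hO' hk).csSup_eq, fun h0 k hk =>
    (great_topV he hO hO' hk (hlo 0 (by simpa using h0))).csSup_eq⟩
  · rw [det_mul, det_mul, det_diagonal, mul_comm, ← mul_assoc, ← det_mul, hO, det_one, one_mul]
  · rw [trace_mul_comm, ← Matrix.mul_assoc, hO, Matrix.one_mul, trace_diagonal]

/-- the diagonalisation together with the value of `sg` -/
theorem eigD (m : ℕ) (S : Mt m) (h : Sᵀ = S) : ∃ (O : Mt m) (e : Fin m → ℝ), Oᵀ * O = 1 ∧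
    Antitone e ∧ S = O * Matrix.diagonal e * Oᵀ ∧ ∀ k ≤ m, sg k S = psum k e := by
  obtain ⟨O, e, he, hO, hO', rfl⟩ := diag S h
  exact ⟨O, e, hO, he, rfl, fun k hk => (great_sg he hO hO' hk).csSup_eq⟩

end Vale.Agent.P207.SPH.H234
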